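import Vale.Agent.P372.Main

/-! For every `k` and `m`, an entangled Werner state from which no key bit can be distilled when
one party measures blocks of at most `k` copies. -/

namespace Vale.Agent.Results.P372.BlockMeasureZeroKey

open Vale.Agent.P372 Matrix

theorem result (k m : ℕ) :
    ∃ (d : ℕ) (lam : ℝ), (1 : ℝ) < lam * d ∧ lam < 1 ∧
      ∃ ρ : Matrix (Fin d × Fin d) (Fin d × Fin d) ℂ,
        ρ = ((((d : ℝ) * d - lam * d)⁻¹ : ℝ) •
          ((1 : Matrix (Fin d × Fin d) (Fin d × Fin d) ℂ) - lam •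
            Matrix.of (fun p q : Fin d × Fin d => if p.1 = q.2 ∧ p.2 = q.1 then (1 : ℂ) else 0))) ∧
        IsState ρ ∧ ¬ Separable ρ ∧
        ∀ (e : Type) [Fintype e] [DecidableEq e] (ψ : Matrix (Fin d × Fin d) e ℂ),
          ψ * ψᴴ = ρ →
        ∀ (N : ℕ) (sz : Fin N → ℕ), (∀ i, sz i ≤ k) →
        ∀ (side : Bool) (l : ℕ), 1 ≤ l →
        ∀ (T : Type) [Fintype T] [DecidableEq T]
          (Eff : T → (Fin l → Bool) → (Fin l → Bool) →
            Matrix (Sys d sz × Sys d sz) (Sys d sz × Sys d sz) ℂ),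
          BlockProtocol m sz side Eff →
        ∀ (σ : Matrix (T × EveSys e sz) (T × EveSys e sz) ℂ), IsState σ →
          1 / 2 ≤ traceNorm (finalState (purifPow ψ sz) Eff - idealState σ) := by
  set g : ℝ := ((2 * (m : ℝ) + 3) * 2 ^ k)⁻¹ with hg
  have h2 : (1 : ℝ) ≤ 2 ^ k := one_le_pow₀ (by norm_num)
  have hD : (3 : ℝ) ≤ (2 * (m : ℝ) + 3) * 2 ^ k := by
    nlinarith [(Nat.cast_nonneg m : (0 : ℝ) ≤ m)]
  have hg0 : 0 < g := inv_pos.mpr (by linarith)
  have hg1 : g < 1 := by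
    rw [hg]; exact inv_lt_one_of_one_lt₀ (by linarith)
  have hmul : ((2 * (m : ℝ) + 3) * 2 ^ k) * g = 1 := mul_inv_cancel₀ (by linarith)
  refine ⟨2 * ((2 * m + 3) * 2 ^ k), g, ?_, hg1, ?_⟩
  · push_cast
    nlinarith
  set d := 2 * ((2 * m + 3) * 2 ^ k) with hdef
  have hd : 0 < d := by positivity
  have hent : 1 < g * (d : ℝ) := by
    rw [hdef]; push_cast
    nlinarith
  refine ⟨werner d g, rfl, werner_isState hd hg0.le hg1, werner_not_separable hd hg1 hent, ?_⟩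
  intro e _ _ ψ hψ N sz hsz side l hl T _ _ Eff hP σ hσ
  refine werner_zero_key m k d hd hg0 hg1 ?_ e ψ hψ N sz hsz side l hl T Eff hP σ hσ
  calc (2 * (m : ℝ) + 3) * ((1 + g) ^ k - 1) ≤ (2 * (m : ℝ) + 3) * ((2 ^ k - 1) * g) :=
        mul_le_mul_of_nonneg_left (budget hg0.le hg1.le k) (by positivity)
    _ ≤ 1 := by nlinarith

end Vale.Agent.Results.P372.BlockMeasureZeroKey
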