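import Vale.Agent.P372.Key.Rate
import Vale.Agent.P372.Key.Converse

namespace Vale.Agent.Results.P372.KeyCriterion

open Vale.Agent.P372 Vale.Agent.P372.Key

theorem result : ∀ (dA dB : ℕ) (ρ : Matrix (Fin dA × Fin dB) (Fin dA × Fin dB) ℂ), IsState ρ →
    (PositiveKeyRate ρ ↔ ∃ n : ℕ, 0 < n ∧ KeyWitness (powState ρ n)) :=
  fun _ _ _ hρ => ⟨witness_of_positiveKeyRate hρ,
    fun ⟨_, hn, h⟩ => positiveKeyRate_of_witness hρ hn h⟩

end Vale.Agent.Results.P372.KeyCriterion
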