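import Vale.Agent.P372.Key.Qutrit

namespace Vale.Agent.Results.P372.KeyPhaseCovariant

open Vale.Agent.P372 Vale.Agent.P372.Key

theorem result :
    (∀ (d : ℕ) (α : Fin d → Fin d → ℝ), (∀ i j, i ≠ j → 0 ≤ α i j) →
      ((∃ i j, i ≠ j ∧ α i j * α j i < 1) ∨
        (∃ i j k, i ≠ j ∧ j ≠ k ∧ k ≠ i ∧ α i j * α j k * α k i < 1)) →
      PositiveKeyRate (phaseCov α)) ∧
    (∀ α : Fin 3 → Fin 3 → ℝ, (∀ i j, i ≠ j → 0 ≤ α i j) →
      ¬ Separable (phaseCov α) → PositiveKeyRate (phaseCov α)) := by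
  refine ⟨fun d α hα h => ?_, fun α hα h => key_of_entangled_qutrit hα h⟩
  rcases h with ⟨i, j, hij, h⟩ | ⟨i, j, k, hij, hjk, hki, h⟩
  · exact key_of_light_pair hα hij h
  · exact key_of_light_triangle hα hij hjk hki h

end Vale.Agent.Results.P372.KeyPhaseCovariant
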