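import Vale.Agent.P372.Announce

/-! The entangled Werner state `1 - (2/d) • flip` gives no key bit to protocols in which the
announcements of one party are local to blocks of at most `d/12` copies. -/

namespace Vale.Agent.Results.P372.LocalAnnounceZeroKey

open Vale.Agent.P372 Matrix

theorem result (d k : ℕ) (hd : 3 ≤ d) (hk : 12 * k ≤ d) :
    ∃ ρ : Matrix (Fin d × Fin d) (Fin d × Fin d) ℂ,
      ρ = ((((d : ℝ) * d - 2 / d * d)⁻¹ : ℝ) •
        ((1 : Matrix (Fin d × Fin d) (Fin d × Fin d) ℂ) - (2 / d : ℝ) •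
          Matrix.of (fun p q : Fin d × Fin d => if p.1 = q.2 ∧ p.2 = q.1 then (1 : ℂ) else 0))) ∧
      IsState ρ ∧ ¬ Separable ρ ∧
      ∀ (e : Type) [Fintype e] [DecidableEq e] (ψ : Matrix (Fin d × Fin d) e ℂ),
        ψ * ψᴴ = ρ →
      ∀ (N : ℕ) (sz : Fin N → ℕ), (∀ i, sz i ≤ k) →
      ∀ (side : Bool) (l : ℕ), 1 ≤ l →
      ∀ (T : Type) [Fintype T] [DecidableEq T]
        (Eff : T → (Fin l → Bool) → (Fin l → Bool) →
          Matrix (Sys d sz × Sys d sz) (Sys d sz × Sys d sz) ℂ),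
        LocalAnnounce sz side Eff →
      ∀ (σ : Matrix (T × EveSys e sz) (T × EveSys e sz) ℂ), IsState σ →
        1 / 2 ≤ traceNorm (finalState (purifPow ψ sz) Eff - idealState σ) := by
  have hd' : (3 : ℝ) ≤ d := by exact_mod_cast hd
  have hd0 : 0 < d := by omega
  set g : ℝ := 2 / d with hg
  have hgd : g * d = 2 := by rw [hg]; field_simp
  have hg0 : 0 < g := div_pos two_pos (by linarith)
  have hg1 : g < 1 := by rw [hg, div_lt_one (by linarith)]; linarith
  have hk' : (k : ℝ) * g ≤ 1 / 6 := by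
    rw [hg, mul_div_assoc', div_le_iff₀ (by linarith)]
    have : (12 : ℝ) * k ≤ d := by exact_mod_cast hk
    linarith
  refine ⟨werner d g, rfl, werner_isState hd0 hg0.le hg1,
    werner_not_separable hd0 hg1 (by linarith), ?_⟩
  intro e _ _ ψ hψ N sz hsz side l hl T _ _ Eff hP σ hσ
  refine werner_announce_zero_key k d hd0 hg0 hg1 ?_ e ψ hψ N sz hsz side l hl T Eff hP σ hσ
  have := budget_linear hg0.le (k := k) (by linarith)
  linarith

end Vale.Agent.Results.P372.LocalAnnounceZeroKey
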